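import Vale.Agent.P087.Main
import Vale.Agent.P087.Measurable

/-! Disproof of `χ = χ*` for tuples of finite microstates free entropy. -/

namespace Vale.Agent.Results.P087.ChiNeChiStar

open Vale.Agent.P087

/-- There is a finite nonempty self-adjoint tuple in a tracial von Neumann algebra, together with
a free semicircular family free from it in the same algebra, whose microstates entropy is finite
and strictly smaller than its nonmicrostates entropy, whose defining integrand is measurable. -/
theorem result :
    ∃ (ι : Type) (_ : Fintype ι) (_ : DecidableEq ι) (H : Type) (_ : NormedAddCommGroup H)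
      (_ : InnerProductSpace ℂ H) (_ : CompleteSpace H) (M : VonNeumannAlgebra H) (Ω : H)
      (X S : ι → H →L[ℂ] H),
      Nonempty ι ∧ IsFaithfulTracialState M Ω ∧
      (∀ j, X j ∈ M ∧ IsSelfAdjoint (X j)) ∧ (∀ j, S j ∈ M ∧ IsSelfAdjoint (S j)) ∧
      IsFreeSemicircularFamily Ω X S ∧
      Measurable (fun s : ℝ => freeFisher Ω (heatFlow X S s)) ∧
      ⊥ < chi Ω X ∧ chi Ω X < chiStar Ω X S ∧ chiStar Ω X S < ⊤ := by
  obtain ⟨q, hq, h1, h2, h3⟩ := Model.counterexample
  exact ⟨Model.I q, inferInstance, inferInstance, Fock (Model.Lab q), inferInstance, inferInstance,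
    inferInstance, fockAlg (Model.Lab q), vac (Model.Lab q), Model.Z, Model.S,
    ⟨Sum.inl 0⟩, fockAlg_tracial, fun j => ⟨Model.Z_mem j, Model.star_Z j⟩,
    fun j => ⟨Model.S_mem j, isSelfAdjoint_sL _⟩, Model.isFree, measurable_freeFisher _ _ _, h1, h2, h3⟩

end Vale.Agent.Results.P087.ChiNeChiStar
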